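import Vale.Agent.P354RG.Defs
import Vale.Agent.P354R.Slice

/-!
The fundamental forms of the slices of the background.
-/

open scoped ContDiff
open Set Filter Topology

namespace Vale.Agent.P354KF

open Vale.Agent.P354n (R4)
open Vale.Agent.P354H (X3)
open Vale.Agent.P354I (P3)
open Vale.Agent.P354R Vale.Agent.P354RG

/-- The metric as a polynomial in its coefficients. -/
def pol (f0 g1 g2 g3 β w a0 a1 b0 b1 R PA PB ZA ZB : ℝ) : ℝ :=
  f0 * (-(a0 * b0) + a1 * b1) +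
    g1 * (R - β * (b0 + b1) * PA - β * (a0 + a1) * PB + β * (a0 + a1) * (β * (b0 + b1)) * w) +
    g2 * (ZA * ZB) + g3 * ((PA - β * (a0 + a1) * w) * ZB + ZA * (PB - β * (b0 + b1) * w))

variable (k d : ℝ) (G : ℕ → Y3 → ℝ) (p : P3) (σ : Bool)

/-- The argument of the coefficients. -/
noncomputable def ag (P : R4) : Y3 := (p, rho k d P, ht σ P.2.2)

theorem bg_eq (P A B : R4) : bg k d (Fx G p) σ P A B =
    pol ((ag k d p σ P).2.1 * G 0 (ag k d p σ P)) (G 1 (ag k d p σ P)) (G 2 (ag k d p σ P))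
      (G 3 (ag k d p σ P)) (bet G (ag k d p σ P)) (1 - ht σ P.2.2 ^ 2) A.1 A.2.1 B.1 B.2.1
      (rnd P.2.2 A.2.2 B.2.2) (alp P.2.2 A.2.2) (alp P.2.2 B.2.2) (dht σ P.2.2 A.2.2)
      (dht σ P.2.2 B.2.2) := by
  simp only [bg, gam, hor, rnd_sub σ, alp_sub σ, dht_sub, pol, bet, ag, Fx, arg, rho]
  ring

theorem d_comp {f : Y3 → ℝ} (hf : ContDiff ℝ ∞ f) (P V : R4) :
    HasDerivAt (fun t : ℝ => f (ag k d p σ (P + t • V)))
      (V.1 * dt k f (ag k d p σ P) + dht σ P.2.2 V.2.2 * gz f (ag k d p σ P)) 0 := by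
  have h1 : HasDerivAt (fun t : ℝ => rho k d (P + t • V)) (-(k * rho k d P) * V.1) 0 :=
    ((((lin1 P.1 V.1).const_mul (-k)).exp).const_mul d).congr_deriv (by
      simp only [rho, zero_mul, add_zero]
      ring)
  have h2 : HasDerivAt (fun t : ℝ => ht σ (P + t • V).2.2) (dht σ P.2.2 V.2.2) 0 := by
    rw [← fderiv_ht]
    exact ((ht_smooth σ).differentiable (by simp) P.2.2).hasFDerivAt.hasLineDerivAt V.2.2
  have h3 := (hasDerivAt_const (0 : ℝ) p).prodMk (h1.prodMk h2)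
  have h4 := (hf.differentiable (by simp) (ag k d p σ (P + (0 : ℝ) • V))).hasFDerivAt.comp_hasDerivAt
    (0 : ℝ) h3
  refine h4.congr_deriv ?_
  rw [zero_smul, add_zero, show ((0 : P3), -(k * rho k d P) * V.1, dht σ P.2.2 V.2.2) =
    (-(k * rho k d P) * V.1) • ((0, 1, 0) : Y3) + dht σ P.2.2 V.2.2 • ((0, 0, 1) : Y3) by simp,
    map_add, map_smul, map_smul]
  simp only [dt, gs, gz, ag, smul_eq_mul]
  ring

theorem d_den (y V : ℝ × ℝ) {n : ℝ → ℝ} {n' : ℝ} (h : HasDerivAt n n' 0) :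
    HasDerivAt (fun t : ℝ => n t / (1 + (y + t • V).1 ^ 2 + (y + t • V).2 ^ 2) ^ 2)
      (n' / (1 + y.1 ^ 2 + y.2 ^ 2) ^ 2 -
        4 * (y.1 * V.1 + y.2 * V.2) * n 0 / (1 + y.1 ^ 2 + y.2 ^ 2) ^ 3) 0 := by
  have h0 := (sd_pos y).ne'
  refine (h.div (((((lin1 y.1 V.1).pow 2).const_add 1).add ((lin1 y.2 V.2).pow 2)).pow 2)
    (by simpa using h0)).congr_deriv ?_
  simp only [Pi.pow_apply, Pi.add_apply, zero_mul, add_zero]
  push_cast
  field_simp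
  ring

/-- The derivatives of the forms on the sphere. -/
noncomputable def rnd' (y V A B : ℝ × ℝ) : ℝ :=
  -(16 * (y.1 * V.1 + y.2 * V.2) * (A.1 * B.1 + A.2 * B.2) / (1 + y.1 ^ 2 + y.2 ^ 2) ^ 3)
noncomputable def alp' (y V A : ℝ × ℝ) : ℝ :=
  4 * (V.1 * A.2 - V.2 * A.1) / (1 + y.1 ^ 2 + y.2 ^ 2) ^ 2 -
    16 * (y.1 * V.1 + y.2 * V.2) * (y.1 * A.2 - y.2 * A.1) / (1 + y.1 ^ 2 + y.2 ^ 2) ^ 3
noncomputable def dht' (y V A : ℝ × ℝ) : ℝ :=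
  (bif σ then 1 else -1) * (-4 * (V.1 * A.1 + V.2 * A.2) / (1 + y.1 ^ 2 + y.2 ^ 2) ^ 2 +
    16 * (y.1 * V.1 + y.2 * V.2) * (y.1 * A.1 + y.2 * A.2) / (1 + y.1 ^ 2 + y.2 ^ 2) ^ 3)

theorem d_rnd (y V A B : ℝ × ℝ) :
    HasDerivAt (fun t : ℝ => rnd (y + t • V) A B) (rnd' y V A B) 0 :=
  (d_den y V (hasDerivAt_const (0 : ℝ) (4 * (A.1 * B.1 + A.2 * B.2)))).congr_deriv (by
    unfold rnd'
    ring)

theorem d_alp (y V A : ℝ × ℝ) : HasDerivAt (fun t : ℝ => alp (y + t • V) A) (alp' y V A) 0 :=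
  (d_den y V ((((lin1 y.1 V.1).mul_const A.2).sub ((lin1 y.2 V.2).mul_const A.1)).const_mul
    4)).congr_deriv (by
      simp only [alp', Pi.sub_apply]
      ring)

theorem d_dht (y V A : ℝ × ℝ) :
    HasDerivAt (fun t : ℝ => dht σ (y + t • V) A) (dht' σ y V A) 0 :=
  ((d_den y V ((((lin1 y.1 V.1).mul_const A.1).add ((lin1 y.2 V.2).mul_const A.2)).const_mul
    (-4))).const_mul (bif σ then 1 else -1 : ℝ)).congr_deriv (by
      simp only [dht', Pi.add_apply]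
      ring)

/-- The derivative of pol. -/
def pol' (g1 g2 g3 β w a0 a1 b0 b1 R PA PB ZA ZB f0' g1' g2' g3' β' w' R' PA' PB' ZA' ZB' : ℝ) :
    ℝ :=
  f0' * (-(a0 * b0) + a1 * b1) +
    g1' * (R - β * (b0 + b1) * PA - β * (a0 + a1) * PB + β * (a0 + a1) * (β * (b0 + b1)) * w) +
    g1 * (R' - (b0 + b1) * (β' * PA + β * PA') - (a0 + a1) * (β' * PB + β * PB') +
      (a0 + a1) * (b0 + b1) * (2 * β * β' * w + β ^ 2 * w')) +
    g2' * (ZA * ZB) + g2 * (ZA' * ZB + ZA * ZB') +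
    g3' * ((PA - β * (a0 + a1) * w) * ZB + ZA * (PB - β * (b0 + b1) * w)) +
    g3 * ((PA' - (a0 + a1) * (β' * w + β * w')) * ZB + (PA - β * (a0 + a1) * w) * ZB' +
      ZA' * (PB - β * (b0 + b1) * w) + ZA * (PB' - (b0 + b1) * (β' * w + β * w')))

theorem d_pol {f0 g1 g2 g3 β w R PA PB ZA ZB : ℝ → ℝ} (a0 a1 b0 b1 : ℝ)
    {f0' g1' g2' g3' β' w' R' PA' PB' ZA' ZB' : ℝ} (h0 : HasDerivAt f0 f0' 0)
    (h1 : HasDerivAt g1 g1' 0) (h2 : HasDerivAt g2 g2' 0) (h3 : HasDerivAt g3 g3' 0)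
    (h4 : HasDerivAt β β' 0) (h5 : HasDerivAt w w' 0) (h6 : HasDerivAt R R' 0)
    (h7 : HasDerivAt PA PA' 0) (h8 : HasDerivAt PB PB' 0) (h9 : HasDerivAt ZA ZA' 0)
    (h10 : HasDerivAt ZB ZB' 0) :
    HasDerivAt (fun t => pol (f0 t) (g1 t) (g2 t) (g3 t) (β t) (w t) a0 a1 b0 b1 (R t) (PA t)
      (PB t) (ZA t) (ZB t)) (pol' (g1 0) (g2 0) (g3 0) (β 0) (w 0) a0 a1 b0 b1 (R 0) (PA 0)
        (PB 0) (ZA 0) (ZB 0) f0' g1' g2' g3' β' w' R' PA' PB' ZA' ZB') 0 := by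
  have a := h4.mul_const (a0 + a1)
  have b := h4.mul_const (b0 + b1)
  refine ((((h0.mul_const _).fun_add (h1.fun_mul (((h6.fun_sub (b.fun_mul h7)).fun_sub
    (a.fun_mul h8)).fun_add ((a.fun_mul b).fun_mul h5)))).fun_add
    (h2.fun_mul (h9.fun_mul h10))).fun_add (h3.fun_mul (((h7.fun_sub (a.fun_mul h5)).fun_mul
      h10).fun_add (h9.fun_mul (h8.fun_sub (b.fun_mul h5)))))).congr_deriv ?_
  unfold pol'
  ring

/-- The derivative of a coefficient in the direction V. -/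
noncomputable def dv (f : Y3 → ℝ) (P V : R4) : ℝ :=
  V.1 * dt k f (ag k d p σ P) + dht σ P.2.2 V.2.2 * gz f (ag k d p σ P)

theorem d_bg (hG : ∀ i, ContDiff ℝ ∞ (G i)) (P V A B : R4) :
    P354n.deriv (fun Q => bg k d (Fx G p) σ Q A B) P V =
      pol' (G 1 (ag k d p σ P)) (G 2 (ag k d p σ P)) (G 3 (ag k d p σ P)) (bet G (ag k d p σ P))
        (1 - ht σ P.2.2 ^ 2) A.1 A.2.1 B.1 B.2.1 (rnd P.2.2 A.2.2 B.2.2) (alp P.2.2 A.2.2)
        (alp P.2.2 B.2.2) (dht σ P.2.2 A.2.2) (dht σ P.2.2 B.2.2)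
        (dv k d p σ (fun c => c.2.1 * G 0 c) P V) (dv k d p σ (G 1) P V) (dv k d p σ (G 2) P V)
        (dv k d p σ (G 3) P V) (dv k d p σ (bet G) P V) (-(2 * ht σ P.2.2 * dht σ P.2.2 V.2.2))
        (rnd' P.2.2 V.2.2 A.2.2 B.2.2) (alp' P.2.2 V.2.2 A.2.2) (alp' P.2.2 V.2.2 B.2.2)
        (dht' σ P.2.2 V.2.2 A.2.2) (dht' σ P.2.2 V.2.2 B.2.2) := by
  have h2 : HasDerivAt (fun t : ℝ => ht σ (P.2.2 + t • V.2.2)) (dht σ P.2.2 V.2.2) 0 := by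
    rw [← fderiv_ht]
    exact ((ht_smooth σ).differentiable (by simp) P.2.2).hasFDerivAt.hasLineDerivAt V.2.2
  have s : ∀ i, ContDiff ℝ ∞ fun c : Y3 => c.2.1 * G i c := fun i =>
    contDiff_snd.fst.mul (hG i)
  have h := d_pol A.1 A.2.1 B.1 B.2.1 (d_comp k d p σ (s 0) P V) (d_comp k d p σ (hG 1) P V)
    (d_comp k d p σ (hG 2) P V) (d_comp k d p σ (hG 3) P V) (d_comp k d p σ (f := bet G) (s 4) P V)
    ((h2.fun_pow 2).const_sub 1) (d_rnd P.2.2 V.2.2 A.2.2 B.2.2) (d_alp P.2.2 V.2.2 A.2.2)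
    (d_alp P.2.2 V.2.2 B.2.2) (d_dht σ P.2.2 V.2.2 A.2.2) (d_dht σ P.2.2 V.2.2 B.2.2)
  simp only [bg_eq]
  refine (HasLineDerivAt.lineDeriv (h.congr_deriv ?_))
  simp only [zero_smul, add_zero, dv]
  norm_num

theorem kf : KF := by
  intro k d G p σ τ z A B _ hG _
  refine ⟨?_, ?_⟩
  · rw [bg_eq]
    simp only [pol, tenC, frm, cH, unt, hH, ag, rho]
    ring
  · have e : ag k d p σ (τ, z) = (p, d * Real.exp (-k * τ), ht σ z.2) := rfl
    have h0 := (sd_pos z.2).ne'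
    simp only [chr, d_bg k d G p σ hG, dv, e, tenC, frm, cK, unt, kH, nrm, rho, Fx, arg]
    rw [show d * Real.exp (-k * τ) * G 4 (p, d * Real.exp (-k * τ), ht σ z.2) =
      bet G (p, d * Real.exp (-k * τ), ht σ z.2) from rfl]
    generalize (p, d * Real.exp (-k * τ), ht σ z.2) = c
    simp only [div_eq_mul_inv, mul_inv]
    generalize (√(d * Real.exp (-k * τ) * G 0 c))⁻¹ = o
    simp only [pol', rnd', alp', dht', rnd, alp, dht, ht, rot, Prod.smul_fst, Prod.smul_snd,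
      smul_eq_mul]
    cases σ <;> simp only [cond] <;> field_simp <;> ring

end Vale.Agent.P354KF
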