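import Vale.Agent.P354KF.Bnd
import Vale.Agent.P354J.Pull

/-!
The Kerr family of the frame system.
-/

open scoped ContDiff
open Set Filter Topology Metric

namespace Vale.Agent.P354KF

open Vale.Agent.P354n (R4)
open Vale.Agent.P354I (P3 IsKF BK2)
open Vale.Agent.P354H (X3 Sb sl)
open Vale.Agent.P354C Vale.Agent.P354C.Ix
open Vale.Agent.P354A (U0 isQ isW)
open Vale.Agent.P354J (pb Ud Ind sl2)
open Vale.Agent.P354R Vale.Agent.P354RG

section One

variable {F : ℕ → R3 → ℝ} {σ : Bool} {p : ℕ → R4 → ℝ} (h : Hyp F σ p) (k : ℝ) {d : ℝ} (hd : 0 < d)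
include h hd

lemma L2s (i : Ix) : ContDiff ℝ ∞ fun x => L2 (UK k d F σ p) x i := by
  rw [h.L2_UK k hd]
  exact (h.G2_s k i).comp (qm_smooth k _)

variable {D : Set R4} (hD : IsOpen D) (hv : Vac (bg k d F σ) D)
include hD hv

lemma fullD {x : R4} (hx : x ∈ D) : Full (L2 (UK k d F σ p) x) (dfr (L2 (UK k d F σ p)) x) := by
  obtain ⟨G, hG⟩ := hv
  refine (P354Q.conv _ D hD (fun i _ => (h.UK_s k hd i).contDiffOn) fun x _ =>
    ⟨(h.UK_det k hd x).ne', (h.UK_O k hd x).ne', h.UK_br k hd x⟩).2.2.2.2 G (fun y hy => ?_) x hx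
  rw [h.met_eq k hd]
  exact hG y hy

lemma indD {x : R4} (hx : x ∈ D) (a b : X3) :
    P354J.hf (L2 (UK k d F σ p) x) a b = bg k d F σ x (0, a) (0, b) ∧
    P354J.Kf (L2 (UK k d F σ p) x) a b = -chr (bg k d F σ) x (0, a) (0, b) (nrm k d F σ x) := by
  have hm : met (L2 (UK k d F σ p)) = bg k d F σ := h.met_eq k hd
  obtain ⟨_, h1⟩ := P354J.ind (L2 (UK k d F σ p)) x (h.UK_det k hd x).ne' (h.UK_O k hd x).ne'
  obtain ⟨_, _, h2, h3⟩ := h1 a b
  have h4 := (P354Q.vac (L2 (UK k d F σ p)) D hD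
    (fun i => (L2s h k hd i).contDiffOn) (fun y hy => ⟨(h.UK_det k hd y).ne',
      (h.UK_O k hd y).ne', (fullD h k hd hD hv hy).tor, (fullD h k hd hD hv hy).dO⟩) x hx).1
  rw [hm] at h2 h3 h4
  refine ⟨h2.symm, ?_⟩
  rw [← h3, h.nU_eq k hd, bg_symm, chr, ← h4]
  ring

end One

/-- The bound in the chart. -/
def LL (S : ℝ) (m n : ℕ) (H : P3 → R4 → ℝ) (p : P3) (C : ℝ) : Prop :=
  ∀ e ∈ Icc (0 : ℝ) 1, ∀ s ∈ Icc 0 S, Sb m (fun z : X3 => H p (e, s, z.2)) (C * (e * s) ^ n)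

lemma LeS.ll {S C : ℝ} {m n : ℕ} {H : P3 → R4 → ℝ} {p : P3} (h : LeS S m n H p C) :
    LL S m n H p C := fun e he s hs => by simpa using h 1 e he s hs

lemma LeS.ll2 {S C : ℝ} {m : ℕ} {H H' : P3 → R4 → ℝ} {p : P3} (h : LeS S m 1 H' p C)
    (e1 : ∀ q, H p q = mu q * H' p q) : LL S m 2 H p C := fun e he s hs => by
  simp only [e1, mu]
  refine (h (e * s) e he s hs).mono le_rfl (le_of_eq ?_)
  rw [abs_of_nonneg (mul_nonneg he.1 hs.1)]
  ring

lemma LL.mono {S C C' : ℝ} {m n : ℕ} {H : P3 → R4 → ℝ} {p : P3} (h : LL S m n H p C)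
    (hC : C ≤ C') : LL S m n H p C' := fun e he s hs => (h e he s hs).mono le_rfl
  (mul_le_mul_of_nonneg_right hC (pow_nonneg (mul_nonneg he.1 hs.1) n))

/-- The decaying part of the unknowns. -/
noncomputable def HK (k : ℝ) (G : ℕ → Y3 → ℝ) (σ : Bool) (P : P3 → ℕ → R4 → ℝ) (i : Ix) (p : P3)
    (q : R4) : ℝ := cut q * (G2 k (Fx G p) σ (P p) q i - U0 k i)

lemma HypP.bnd {G : ℕ → Y3 → ℝ} {σ : Bool} {P : P3 → ℕ → R4 → ℝ} (h : HypP G σ P) (k : ℝ)
    (p0 : P3) (r S : ℝ) (m : ℕ) (i : Ix) :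
    (∃ C, 0 ≤ C ∧ ∀ p ∈ ball p0 r, LL S m 1 (HK k G σ P i) p C ∧
      (isW i → LL S m 2 (HK k G σ P i) p C)) ∧ ∀ η > 0, ∀ᶠ p in 𝓝 p0,
      LL S m 1 (fun p q => HK k G σ P i p q - HK k G σ P i p0 q) p η ∧
      (isW i → LL S m 2 (fun p q => HK k G σ P i p q - HK k G σ P i p0 q) p η) := by
  have w1 : W1 (HK k G σ P i) := w1_cut (ContDiff.sub (h.G2_J k i) contDiff_const)
    (fun p s y => by rw [(h.hyp p).G2_bdry k (Or.inl rfl), sub_self])
    (fun p e y => by rw [(h.hyp p).G2_bdry k (Or.inr rfl), sub_self])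
  obtain ⟨C, hC, h1⟩ := (szS1 p0 r S m w1).1
  have h2 := (szS1 p0 r S m (w1.sub p0)).2 fun q => sub_self _
  have h3 : isW i → (∃ C, 0 ≤ C ∧ ∀ p ∈ ball p0 r, LL S m 2 (HK k G σ P i) p C) ∧ ∀ η > 0,
      ∀ᶠ p in 𝓝 p0, LL S m 2 (fun p q => HK k G σ P i p q - HK k G σ P i p0 q) p η := fun hi => by
    by_cases hq : isQ i
    · have w2 : W1 fun p q => cut q * HH k (Fx G p) σ (P p) q i := w1_cut (h.HH_J k i)
        (fun p s y => HH_e0 (h.hyp p) k rfl i hq) fun p e y => (h.hyp p).HH_bdry k rfl i hq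
      have u0 : U0 k i = 0 := by cases i <;> first | rfl | exact absurd hq (by decide)
      have e : ∀ p q, HK k G σ P i p q = mu q * (cut q * HH k (Fx G p) σ (P p) q i) :=
        fun p q => by
          rw [HK, u0, (h.hyp p).G2_Q k q i hq]
          ring
      obtain ⟨D, hD, h4⟩ := (szS1 p0 r S m w2).1
      exact ⟨⟨D, hD, fun p hp => (h4 p hp).ll2 (e p)⟩, fun η hη =>
        ((szS1 p0 r S m (w2.sub p0)).2 (fun q => sub_self _) η hη).mono fun p hp =>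
          hp.ll2 fun q => by rw [e, e, mul_sub]⟩
    · have w2 : W2 (HK k G σ P i) := ⟨w1, fun p q => ⟨by
        rw [HK, h.G2_ev k p (by simp) (by simp) (by simp) q i hi hq]
        rfl, by
        rw [HK, h.G2_ev k p (by simp) (by simp) (by simp) q i hi hq]
        rfl⟩⟩
      obtain ⟨D, hD, h4⟩ := (szS2 p0 r S m w2).1
      exact ⟨⟨D, hD, fun p hp => (h4 p hp).ll⟩, fun η hη =>
        ((szS2 p0 r S m (w2.sub p0)).2 (fun q => sub_self _) η hη).mono fun p hp => hp.ll⟩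
  by_cases hi : isW i
  · obtain ⟨⟨D, hD, h4⟩, h5⟩ := h3 hi
    refine ⟨⟨C + D, by positivity, fun p hp => ⟨(h1 p hp).ll.mono (by linarith),
      fun _ => (h4 p hp).mono (by linarith)⟩⟩, fun η hη => ?_⟩
    filter_upwards [h2 η hη, h5 η hη] with p a b using ⟨a.ll, fun _ => b⟩
  · exact ⟨⟨C, hC, fun p hp => ⟨(h1 p hp).ll, fun c => absurd c hi⟩⟩,
      fun η hη => (h2 η hη).mono fun p a => ⟨a.ll, fun c => absurd c hi⟩⟩

lemma sta (hT : TEN) (c : ℕ → ℝ → ℝ) (σ : Bool) (x : ℝ) (y : ℝ × ℝ) :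
    pb σ (ten c) (x, y) = pb σ (ten c) (0, y) := by
  ext i j
  rw [hT, hT]
  rfl

theorem isKF {p0 : P3} {k ε0 δ : ℝ} {G : ℕ → Y3 → ℝ} (hG : IsG p0 k ε0 δ G) (hT : TEN) (hF : KF)
    (hP : PDK) (hg : GEO) (hS : STA) (hW : WIT) : ∃ δ1 C K, IsKF p0 k ε0 δ1 C K (kd k G) := by
  obtain ⟨k0, e0, d0⟩ := hG.pos0
  choose P P1 P2 P3' using fun σ => frameP σ hG.smooth hG.pos
  have H : ∀ σ, HypP G σ (P σ) := fun σ => ⟨hG.smooth, P1 σ, P2 σ, P3' σ⟩
  choose C c0 hC using fun m (j : Bool × Ix) => ((H j.1).bnd k p0 ε0 (Real.exp (k / 2)) m j.2).1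
  have hd : ∀ t : ℝ, 0 < Real.exp (-k * t) := fun t => Real.exp_pos _
  have sq : ∀ t : ℝ, √(Real.exp (-k * t)) = Real.exp (-k * t / 2) := fun t => by
    rw [← exp_half, Real.sqrt_sq (Real.exp_pos _).le]
  have he : ∀ t ≥ 0, √(Real.exp (-k * t)) ∈ Icc (0 : ℝ) 1 := fun t ht =>
    ⟨Real.sqrt_nonneg _, Real.sqrt_le_one.2 (Real.exp_le_one_iff.2 (by nlinarith))⟩
  have hs : ∀ t, -1 ≤ t → Real.exp (-k * t / 2) ∈ Icc 0 (Real.exp (k / 2)) := fun t ht =>
    ⟨(Real.exp_pos _).le, Real.exp_le_exp.2 (by nlinarith)⟩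
  have es : ∀ t τ : ℝ, √(Real.exp (-k * t)) * Real.exp (-k * τ / 2) =
      Real.exp (-k * (t + τ) / 2) := fun t τ => by
    rw [sq, ← Real.exp_add]
    ring_nf
  let K : P3 → ℝ → Bool → R4 → Ix → ℝ := fun p t σ x i =>
    HK k G σ (P σ) i p (qm k (√(Real.exp (-k * t))) x) + U0 k i
  let U : P3 → ℝ → Bool → R4 → Ix → ℝ := fun p t σ =>
    L2 (UK k (Real.exp (-k * t)) (Fx G p) σ (P σ p))
  have hK : ∀ p t σ (x : R4), P354I.r2 x.2 ≤ 16 → K p t σ x = U p t σ x := fun p t σ x hx => by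
    funext i
    simp only [K, U, HK, (P2 σ p).L2_UK k (hd t)]
    rw [cut_one (q := qm k _ x) hx]
    ring
  have hD : ∀ t, IsOpen {w : R4 | Real.exp (-k * t) * Real.exp (-k * w.1) < 1 + δ} := fun t =>
    isOpen_lt (by fun_prop) continuous_const
  have l0 : 0 < Real.log (1 + δ) := Real.log_pos (by linarith)
  have mem : ∀ t ≥ 0, ∀ τ, -min 1 (Real.log (1 + δ) / k) < τ →
      Real.exp (-k * t) * Real.exp (-k * τ) < 1 + δ := fun t ht τ hτ => by
    rw [← Real.exp_add, ← Real.exp_log (show 0 < 1 + δ by linarith), Real.exp_lt_exp]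
    have h1 : -τ < Real.log (1 + δ) / k := by linarith [min_le_right 1 (Real.log (1 + δ) / k)]
    rw [lt_div_iff₀ k0] at h1
    nlinarith
  have dm : 0 < min 1 (Real.log (1 + δ) / k) := lt_min one_pos (div_pos l0 k0)
  have ind : ∀ p ∈ ball p0 ε0, ∀ t ≥ 0, ∀ t', -min 1 (Real.log (1 + δ) / k) < t' - t → ∀ σ z,
      Ind (U p t σ (t' - t, z)) (pb σ (kd k G p t').h z) (pb σ (kd k G p t').K z) := by
    intro p hp t ht t' h1 σ z i j
    obtain ⟨a1, a2⟩ := indD (P2 σ p) k (hd t) (hD t) (hG.vac p hp t σ) (x := (t' - t, z))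
      (mem t ht _ h1) (P354H.e i) (P354H.e j)
    obtain ⟨b1, b2⟩ := hF k _ G p σ (t' - t) z (P354H.e i) (P354H.e j) (hd t) hG.smooth
      fun s ζ hζ => (hG.pos p s ζ hζ).1
    have e : Real.exp (-k * t) * Real.exp (-k * (t' - t)) = Real.exp (-k * t') := by
      rw [← Real.exp_add]
      ring_nf
    rw [e] at b1 b2
    exact ⟨a1.trans (b1.trans (hT _ σ z i j).symm), a2.trans (b2.trans (hT _ σ z i j).symm)⟩
  have hcv : ∀ p ∈ ball p0 ε0, ∀ t ≥ 0, ∀ σ y, U p t σ (0, y) = Ud (kd k G p t) σ y ∧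
      P354J.CC (pb σ (kd k G p t).h) (pb σ (kd k G p t).K) y := fun p hp t ht σ y => by
    refine P354J.cv _ _ (sl2 _ σ (hP p0 k ε0 δ G hG p t)).1 (sl (U p t σ) 0) univ isOpen_univ
      (fun z _ => ?_) y (mem_univ y)
    have h := P2 σ p
    have q1 : qm k (√(Real.exp (-k * t))) (0, z) = (√(Real.exp (-k * t)), 1, z.2) := by simp [qm]
    have s1 := h.fr.sym (√(Real.exp (-k * t))) z.2
    refine ⟨h.UK_O k (hd t) _, ?_, h.UK_det k (hd t) _, ?_, ?_, ?_⟩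
    · change 0 < UK k _ (Fx G p) σ (P σ p) (0, z) P11
      have := mu_qm_pos k (hd t) (0, z)
      have := h.oh_pos (qm k (√(Real.exp (-k * t))) (0, z))
      simp only [UK, V0, Vh, nn, pow_one]
      refine mul_pos ‹_› (mul_pos ‹_› ?_)
      rw [q1]
      exact s1.2
    · change UK k _ (Fx G p) σ (P σ p) (0, z) P12 = UK k _ (Fx G p) σ (P σ p) (0, z) P21
      simp only [UK, V0, Vh, nn, q1, s1.1]
    · have := ind p hp t ht t (by linarith) σ z
      rwa [sub_self] at this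
    · exact (P354J.dslThm _ 0 z fun i => dA (L2s h k (hd t) i) _).1 (Full.constr
        (fullD h k (hd t) (hD t) (hG.vac p hp t σ) (x := (0, z)) (mem t ht 0 (by linarith))))
  have u0 : ∀ i, isW i → U0 k i = 0 := fun i hi => by
    cases i <;> first | rfl | exact absurd hi (by decide)
  refine ⟨min 1 (Real.log (1 + δ) / k), fun m => ∑ j, C m j, K, ⟨k0, e0, dm, min_le_left _ _⟩,
    fun p _ t _ σ => ⟨fun i => ?_, fun _ _ _ _ => rfl, fun z hz => funext fun i => ?_⟩,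
    fun p hp t ht σ m τ hτ i => ?_, fun p hp t ht σ x hx hr => ?_, fun m η hη => ?_,
    fun p hp t ht => ⟨⟨hP p0 k ε0 δ G hG p t, fun σ x y => ?_⟩, fun y hy => ?_⟩,
    fun p hp t ht σ z hz => (hK p t σ (0, z) hz.le).trans (hcv p hp t ht σ z).1,
    fun p hp t ht t' _ h1 σ z hz => ?_, (hg p0 k ε0 δ G hG).1, (hg p0 k ε0 δ G hG).2,
    hS p0 k ε0 δ G hG, hW p0 k ε0 δ G hG⟩
  · exact (((cut_smooth.mul (((P2 σ p).G2_s k i).sub contDiff_const)).add contDiff_const).comp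
      (qm_smooth k _)).contDiffOn
  · simp only [K, HK]
    rw [cut_zero (q := qm k _ z) hz, zero_mul, zero_add]
  · obtain ⟨a, b⟩ := hC m (σ, i) p hp
    have le : C m (σ, i) ≤ ∑ j, C m j :=
      Finset.single_le_sum (fun j _ => c0 m j) (Finset.mem_univ _)
    refine ⟨?_, fun hi => ?_⟩
    · have := (a.mono le) _ (he t ht) _ (hs τ hτ)
      rw [pow_one, es] at this
      simpa only [K, qm, add_sub_cancel_right] using this
    · have := ((b hi).mono le) _ (he t ht) _ (hs τ hτ)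
      rw [es, exp_half] at this
      simpa only [K, qm, u0 i hi, add_zero] using this
  · have ho : IsOpen {y : R4 | P354I.r2 y.2 < 16} :=
      isOpen_lt (by unfold P354I.r2; fun_prop) continuous_const
    have hev : K p t σ =ᶠ[𝓝 x] U p t σ := by
      filter_upwards [ho.mem_nhds hr] with y hy using hK p t σ y (le_of_lt hy)
    have e2 : dfr (K p t σ) x = dfr (U p t σ) x := by
      funext j i
      unfold dfr
      rw [hK p t σ x hr.le, EventuallyEq.fderiv_eq (hev.mono fun y hy => congrFun hy i)]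
    rw [e2, hK p t σ x hr.le]
    exact ⟨fullD (P2 σ p) k (hd t) (hD t) (hG.vac p hp t σ) (mem t ht _ hx),
      (P2 σ p).UK_O k (hd t) x, ((P2 σ p).UK_det k (hd t) x).ne'⟩
  · obtain ⟨ε, hε, h1⟩ := Metric.eventually_nhds_iff_ball.1 (eventually_all.2
      fun j : Bool × Ix => ((H j.1).bnd k p0 ε0 (Real.exp (k / 2)) m j.2).2 η hη)
    refine ⟨ε, hε, fun p hp t ht σ τ hτ i => ?_⟩
    obtain ⟨a, b⟩ := h1 p hp (σ, i)
    have le := mul_le_of_le_one_left (hs τ hτ).1 (he t ht).2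
    have nn := mul_nonneg (he t ht).1 (hs τ hτ).1
    refine ⟨?_, fun hi => ?_⟩
    · have := (a _ (he t ht) _ (hs τ hτ)).mono le_rfl
        (mul_le_mul_of_nonneg_left (pow_le_pow_left₀ nn le 1) hη.le)
      rw [pow_one] at this
      simpa only [K, qm, add_sub_add_right_eq_sub] using this
    · have := (b hi _ (he t ht) _ (hs τ hτ)).mono le_rfl
        (mul_le_mul_of_nonneg_left (pow_le_pow_left₀ nn le 2) hη.le)
      rw [exp_half] at this
      simpa only [K, qm, add_sub_add_right_eq_sub] using this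
  · simp only [kd]
    exact ⟨sta hT _ σ x y, sta hT _ σ x y⟩
  · obtain ⟨σ, hσ⟩ := exists_chart hy
    have h1 := ((sl2 _ σ (hP p0 k ε0 δ G hG p t)).2 (P354J.Psi σ y)).1 (hcv p hp t ht σ _).2
    rw [((P354JK.inv σ).2 y hy hσ).1] at h1
    exact h1
  · rw [hK p t σ (t' - t, z) hz.le]
    exact ind p hp t ht t' h1 σ z

theorem bk2_of (h : GB) (hT : TEN) (hF : KF) (hP : PDK) (hg : GEO) (hS : STA) (hW : WIT) :
    BK2 := fun M a r0 h1 h2 h3 h4 => by
  obtain ⟨ε0, δ, G, hG⟩ := h M a r0 h1 h2 h3 h4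
  obtain ⟨δ1, C, K, hK⟩ := isKF hG hT hF hP hg hS hW
  exact ⟨ε0, δ1, C, K, _, hK⟩

end Vale.Agent.P354KF
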