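import Vale.Agent.P354KF.Par

/-!
Bounds with parameters for smooth functions of (e, s, y) which vanish for e = 0 and for s = 0.
-/

open scoped ContDiff
open Set Filter Topology Metric

namespace Vale.Agent.P354KF

open Vale.Agent.P354n (R4)
open Vale.Agent.P354I (P3)
open Vale.Agent.P354H (X3 pd pdl Sb sb_zero sb_succ)
open Vale.Agent.P354R

/-- The derivative in a constant direction. -/
noncomputable def dr (v : R4) (H : P3 → R4 → ℝ) (p : P3) (q : R4) : ℝ := fderiv ℝ (H p) q v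

/-- The mixed derivative in e and s. -/
noncomputable def DD (H : P3 → R4 → ℝ) : P3 → R4 → ℝ := dr (0, 1, 0, 0) (dr (1, 0, 0, 0) H)

/-- Smooth and zero for large y. -/
structure W0 (H : P3 → R4 → ℝ) : Prop where
  sm : J H
  far : ∀ p (q : R4), 25 < q.2.2.1 ^ 2 + q.2.2.2 ^ 2 → H p q = 0

/-- Moreover zero for e = 0 and for s = 0. -/
structure W1 (H : P3 → R4 → ℝ) : Prop extends W0 H where
  e0 : ∀ p s y, H p (0, s, y) = 0
  s0 : ∀ p e y, H p (e, 0, y) = 0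

/-- Moreover even in e and in s. -/
structure W2 (H : P3 → R4 → ℝ) : Prop extends W1 H where
  ev : ∀ p q, H p (Th (-1) 1 q) = H p q ∧ H p (Th 1 (-1) q) = H p q

variable {H : P3 → R4 → ℝ}

lemma W0.dr (h : W0 H) (v : R4) : W0 (dr v H) := by
  refine ⟨h.sm.dir (a := fun _ _ => v) contDiff_const, fun p q hq => ?_⟩
  have ho : IsOpen {q : R4 | 25 < q.2.2.1 ^ 2 + q.2.2.2 ^ 2} :=
    isOpen_lt continuous_const (by fun_prop)
  have : H p =ᶠ[𝓝 q] fun _ => 0 := by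
    filter_upwards [ho.mem_nhds hq] with x hx using h.far p x hx
  rw [P354KF.dr, this.fderiv_eq]
  simp

lemma W1.dy (h : W1 H) (w : ℝ × ℝ) : W1 (dr (0, 0, w) H) :=
  ⟨h.toW0.dr _, fun p s y => fderiv_zero_line (h.sm.at p) (c := 0) fun t => by
    simpa using h.e0 _ _ _, fun p e y => fderiv_zero_line (h.sm.at p) (c := 0) fun t => by
    simpa using h.s0 _ _ _⟩

lemma dr_ev (h : J H) {a b c c' : ℝ} {v : R4} (hv : Th a b v = c' • v) (hc : c' ^ 2 = 1) {p : P3}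
    (he : ∀ q, H p (Th a b q) = c * H p q) (q : R4) :
    dr v H p (Th a b q) = c' * c * dr v H p q := by
  have := Th_fd (h.at p) he q v
  rw [hv, map_smul, smul_eq_mul] at this
  unfold dr
  linear_combination c' * this - fderiv ℝ (H p) (Th a b q) v * hc

lemma W2.dy (h : W2 H) (w : ℝ × ℝ) : W2 (dr (0, 0, w) H) :=
  ⟨h.toW1.dy w, fun p q => ⟨
    (dr_ev h.sm (c := 1) (c' := 1) (by simp [Th]) (by simp)
      (fun q => by rw [(h.ev p q).1, one_mul]) q).trans (by ring),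
    (dr_ev h.sm (c := 1) (c' := 1) (by simp [Th]) (by simp)
      (fun q => by rw [(h.ev p q).2, one_mul]) q).trans (by ring)⟩⟩

lemma W2.DD (h : W2 H) : W1 (DD H) := by
  have h1 := (h.toW0.dr (1, 0, 0, 0)).sm
  refine ⟨(h.toW0.dr _).dr _, fun p s y => ?_, fun p e y => ?_⟩
  · have := dr_ev h1 (a := -1) (b := 1) (c' := 1) (v := (0, 1, 0, 0)) (by simp [Th]) (by simp)
      (dr_ev h.sm (c := 1) (c' := -1) (v := (1, 0, 0, 0)) (by simp [Th]) (by simp)
        fun q => by rw [(h.ev p q).1, one_mul]) (0, s, y)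
    simp only [Th, mul_zero, one_mul] at this
    unfold P354KF.DD
    linarith
  · have := dr_ev h1 (a := 1) (b := -1) (c' := -1) (v := (0, 1, 0, 0)) (by simp [Th]) (by simp)
      (dr_ev h.sm (c := 1) (c' := 1) (v := (1, 0, 0, 0)) (by simp [Th]) (by simp)
        fun q => by rw [(h.ev p q).2, one_mul]) (e, 0, y)
    simp only [Th, mul_zero, one_mul] at this
    unfold P354KF.DD
    linarith

lemma dr_zero {p : P3} (h : ∀ q, H p q = 0) (v q : R4) : dr v H p q = 0 := by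
  rw [dr, funext h]
  simp

lemma two (h : W1 H) {p : P3} {e s B : ℝ} {y : ℝ × ℝ} (he : 0 ≤ e) (hs : 0 ≤ s)
    (hB : ∀ e' ∈ Icc 0 e, ∀ s' ∈ Icc 0 s, |DD H p (e', s', y)| ≤ B) :
    |H p (e, s, y)| ≤ B * (e * s) := by
  have G1s := (h.toW0.dr (1, 0, 0, 0)).sm.at p
  have h1 : ∀ e' ∈ Icc (0 : ℝ) e, ‖dr (1, 0, 0, 0) H p (e', s, y)‖ ≤ B * s := fun e' he' => by
    have h2 := norm_image_sub_le_of_norm_deriv_le_segment'
      (f := fun t => dr (1, 0, 0, 0) H p (e', t, y)) (f' := fun t => DD H p (e', t, y))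
      (a := 0) (b := s) (C := B) (fun t _ => (hasDerivAt_dS G1s e' t y).hasDerivWithinAt)
      (fun t ht => hB e' he' t ⟨ht.1, ht.2.le⟩) s ⟨hs, le_rfl⟩
    have h3 : dr (1, 0, 0, 0) H p (e', 0, y) = 0 :=
      fderiv_zero_line (h.sm.at p) (c := 0) fun t => by simpa using h.s0 _ _ _
    simpa [h3] using h2
  have h4 : ∀ t : ℝ, HasDerivAt (fun t => H p (t, s, y)) (dr (1, 0, 0, 0) H p (t, s, y)) t :=
    fun t => by
      have h5 : HasDerivAt (fun t : ℝ => ((t, s, y) : R4)) (1, 0, 0, 0) t :=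
        (hasDerivAt_id _).prodMk (hasDerivAt_const _ _)
      exact HasFDerivAt.comp_hasDerivAt t (f := fun t : ℝ => ((t, s, y) : R4))
        (dA (h.sm.at p) _).hasFDerivAt h5
  have h6 := norm_image_sub_le_of_norm_deriv_le_segment' (f := fun t => H p (t, s, y))
    (f' := fun t => dr (1, 0, 0, 0) H p (t, s, y)) (a := 0) (b := e) (C := B * s)
    (fun t _ => (h4 t).hasDerivWithinAt) (fun t ht => h1 t ⟨ht.1, ht.2.le⟩) e ⟨he, le_rfl⟩
  simp only [h.e0, sub_zero, Real.norm_eq_abs] at h6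
  linarith

variable (p0 : P3) (r S : ℝ)

/-- The bound at the parameter p. -/
def Le (n : ℕ) (H : P3 → R4 → ℝ) (p : P3) (C : ℝ) : Prop :=
  ∀ e ∈ Icc (0 : ℝ) 1, ∀ s ∈ Icc 0 S, ∀ y, |H p (e, s, y)| ≤ C * (e * s) ^ n
def LeS (m n : ℕ) (H : P3 → R4 → ℝ) (p : P3) (C : ℝ) : Prop :=
  ∀ c, ∀ e ∈ Icc (0 : ℝ) 1, ∀ s ∈ Icc 0 S,
    Sb m (fun z : X3 => c * H p (e, s, z.2)) (|c| * (C * (e * s) ^ n))

/-- Uniform bounds, and smallness near p0. -/
def Sz (L : P3 → ℝ → Prop) (H : P3 → R4 → ℝ) : Prop :=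
  (∃ C, 0 ≤ C ∧ ∀ p ∈ ball p0 r, L p C) ∧ ((∀ q, H p0 q = 0) → ∀ η > 0, ∀ᶠ p in 𝓝 p0, L p η)

lemma sz0 (h : W0 H) : Sz p0 r (Le S 0 H) H := by
  have hK : IsCompact (Icc (0 : ℝ) 1 ×ˢ Icc (0 : ℝ) S ×ˢ Icc (-5 : ℝ) 5 ×ˢ Icc (-5 : ℝ) 5) :=
    isCompact_Icc.prod (isCompact_Icc.prod (isCompact_Icc.prod isCompact_Icc))
  have key : ∀ p C, 0 ≤ C → (∀ q ∈ Icc (0 : ℝ) 1 ×ˢ Icc (0 : ℝ) S ×ˢ Icc (-5 : ℝ) 5 ×ˢ
      Icc (-5 : ℝ) 5, |H p q| ≤ C) → Le S 0 H p C := fun p C hC hq e he s hs y => by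
    rw [pow_zero, mul_one]
    by_cases hy : 25 < y.1 ^ 2 + y.2 ^ 2
    · rwa [h.far p (e, s, y) hy, abs_zero]
    exact hq (e, s, y) ⟨he, hs, by constructor <;> nlinarith [sq_nonneg y.2],
      by constructor <;> nlinarith [sq_nonneg y.1]⟩
  obtain ⟨C, hC⟩ := ((isCompact_closedBall p0 r).prod hK).exists_bound_of_continuousOn
    h.sm.continuous.continuousOn
  refine ⟨⟨max C 0, le_max_right _ _, fun p hp => key p _ (le_max_right _ _) fun q hq =>
    (hC (p, q) ⟨ball_subset_closedBall hp, hq⟩).trans (le_max_left _ _)⟩, fun h0 η hη => ?_⟩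
  refine (hK.eventually_forall_of_forall_eventually (x₀ := p0)
    (P := fun p q => |H p q| ≤ η) fun q _ => ?_).mono fun p hp => key p η hη.le hp
  exact (h.sm.continuous.abs.tendsto (p0, q)).eventually (ge_mem_nhds (by simp [h0, hη]))

lemma sz_step (h : W1 H) {n : ℕ} (h' : Sz p0 r (Le S n (DD H)) (DD H)) :
    Sz p0 r (Le S (n + 1) H) H := by
  have key : ∀ p C, 0 ≤ C → Le S n (DD H) p C → Le S (n + 1) H p C :=
    fun p C hC hp e he s hs y => by
      rw [pow_succ, ← mul_assoc]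
      refine two h he.1 hs.1 fun e' he' s' hs' => (hp e' ⟨he'.1, he'.2.trans he.2⟩ s'
        ⟨hs'.1, hs'.2.trans hs.2⟩ y).trans (mul_le_mul_of_nonneg_left (pow_le_pow_left₀
          (mul_nonneg he'.1 hs'.1) (mul_le_mul he'.2 hs'.2 hs'.1 he.1) n) hC)
  obtain ⟨⟨C, hC, h1⟩, h2⟩ := h'
  exact ⟨⟨C, hC, fun p hp => key p C hC (h1 p hp)⟩, fun h0 η hη =>
    (h2 (dr_zero (dr_zero h0 _) _) η hη).mono fun p => key p η hη.le⟩

lemma sz1 (h : W1 H) : Sz p0 r (Le S 1 H) H := sz_step p0 r S h (sz0 p0 r S ((h.toW0.dr _).dr _))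

lemma sz2 (h : W2 H) : Sz p0 r (Le S 2 H) H := sz_step p0 r S h.toW1 (sz1 p0 r S h.DD)

lemma szS {n : ℕ} {T : (P3 → R4 → ℝ) → Prop} (t1 : ∀ H, T H → J H)
    (t2 : ∀ H w, T H → T (dr (0, 0, w) H)) (t3 : ∀ H, T H → Sz p0 r (Le S n H) H) (m : ℕ) :
    ∀ H, T H → Sz p0 r (LeS S m n H) H := by
  have k0 : ∀ H p C c, Le S n H p C → ∀ e ∈ Icc (0 : ℝ) 1, ∀ s ∈ Icc 0 S, ∀ z : X3,
      ‖c * H p (e, s, z.2)‖ ≤ |c| * (C * (e * s) ^ n) := fun H p C c h e he s hs z => by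
    rw [Real.norm_eq_abs, abs_mul]
    exact mul_le_mul_of_nonneg_left (h e he s hs z.2) (abs_nonneg c)
  induction m with
  | zero =>
    intro H h
    obtain ⟨⟨C, hC, h1⟩, h2⟩ := t3 H h
    exact ⟨⟨C, hC, fun p hp c e he s hs => sb_zero (k0 H p C c (h1 p hp) e he s hs)⟩,
      fun h0 η hη => (h2 h0 η hη).mono fun p hp c e he s hs => sb_zero (k0 H p η c hp e he s hs)⟩
  | succ m ih =>
    intro H h
    obtain ⟨⟨C, hC, h1⟩, h2⟩ := t3 H h
    have h3 := fun j : Fin 3 => ih _ (t2 H (P354H.e j).2 h)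
    choose D hD0 hD using fun j => (h3 j).1
    have hs0 : 0 ≤ ∑ j, D j := Finset.sum_nonneg fun j _ => hD0 j
    refine ⟨⟨C + ∑ j, D j, by positivity, fun p hp c e he s hs => ?_⟩, fun h0 η hη => ?_⟩
    · have hes : 0 ≤ (e * s) ^ n := pow_nonneg (mul_nonneg he.1 hs.1) n
      refine sb_succ (fun z => (k0 H p C c (h1 p hp) e he s hs z).trans ?_) fun j => ?_
      · gcongr
        linarith
      · rw [pd_sl ((t1 H h).at p)]
        refine (hD j p hp c e he s hs).mono le_rfl ?_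
        have : D j ≤ ∑ j, D j := Finset.single_le_sum (fun j _ => hD0 j) (Finset.mem_univ j)
        gcongr
        linarith
    · filter_upwards [h2 h0 η hη, eventually_all.2 fun j => (h3 j).2 (dr_zero h0 _) η hη]
        with p a b c e he s hs
      refine sb_succ (k0 H p η c a e he s hs) fun j => ?_
      rw [pd_sl ((t1 H h).at p)]
      exact b j c e he s hs

lemma szS1 (m : ℕ) (h : W1 H) : Sz p0 r (LeS S m 1 H) H :=
  szS p0 r S (fun _ h => h.sm) (fun _ w h => h.dy w) (fun _ => sz1 p0 r S) m H h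

lemma szS2 (m : ℕ) (h : W2 H) : Sz p0 r (LeS S m 2 H) H :=
  szS p0 r S (fun _ h => h.sm) (fun _ w h => h.dy w) (fun _ => sz2 p0 r S) m H h

lemma W1.sub (h : W1 H) : W1 fun p q => H p q - H p0 q :=
  ⟨⟨ContDiff.sub h.sm ((h.sm.at p0).comp contDiff_snd),
    fun p q hq => by rw [h.far p q hq, h.far p0 q hq, sub_zero]⟩,
    fun p s y => by rw [h.e0, h.e0, sub_zero], fun p e y => by rw [h.s0, h.s0, sub_zero]⟩

lemma W2.sub (h : W2 H) : W2 fun p q => H p q - H p0 q :=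
  ⟨h.toW1.sub p0, fun p q => by simp only [h.ev, and_self]⟩

lemma cut_zero {q : R4} (h : 25 ≤ q.2.2.1 ^ 2 + q.2.2.2 ^ 2) : cut q = 0 :=
  Real.smoothTransition.zero_of_nonpos (by linarith)

lemma w1_cut (hH : J H) (h1 : ∀ p s y, H p (0, s, y) = 0) (h2 : ∀ p e y, H p (e, 0, y) = 0) :
    W1 fun p q => cut q * H p q :=
  ⟨⟨ContDiff.mul (cut_smooth.comp contDiff_snd) hH, fun p q hq => by
    rw [cut_zero hq.le, zero_mul]⟩, fun p s y => by rw [h1, mul_zero],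
    fun p e y => by rw [h2, mul_zero]⟩

end Vale.Agent.P354KF
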