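import Vale.Agent.P354RG.Defs
import Vale.Agent.P354R.BK

/-!
The frame of the spheres which does not rotate along n, with parameters.
-/

open scoped ContDiff
open Set Filter Topology

namespace Vale.Agent.P354KF

open Vale.Agent.P354n (R4)
open Vale.Agent.P354I (P3)
open Vale.Agent.P354R Vale.Agent.P354RG

section Gen

variable {E : Type} [NormedAddCommGroup E] [NormedSpace ℝ E]

/-- the derivative in the last variable -/
noncomputable def dL (f : E × ℝ → ℝ) (q : E × ℝ) : ℝ := fderiv ℝ f q (0, 1)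

lemma dL_sm {f : E × ℝ → ℝ} (h : ContDiff ℝ ∞ f) : ContDiff ℝ ∞ (dL f) :=
  (h.fderiv_right (m := ∞) (by simp)).clm_apply contDiff_const

lemma has_dL {f : E × ℝ → ℝ} (h : ContDiff ℝ ∞ f) (e : E) (s : ℝ) :
    HasDerivAt (fun t => f (e, t)) (dL f (e, s)) s := by
  have h1 : HasDerivAt (fun t : ℝ => ((e, t) : E × ℝ)) (0, 1) s :=
    (hasDerivAt_const _ _).prodMk (hasDerivAt_id _)
  exact HasFDerivAt.comp_hasDerivAt s (f := fun t : ℝ => ((e, t) : E × ℝ))
    (h.differentiable (by simp) _).hasFDerivAt h1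

lemma dL_rot {χ f g : E × ℝ → ℝ} (hχ : ContDiff ℝ ∞ χ) (hf : ContDiff ℝ ∞ f) (hg : ContDiff ℝ ∞ g)
    (q : E × ℝ) : dL (fun q => Real.cos (χ q) * f q + Real.sin (χ q) * g q) q =
      Real.cos (χ q) * dL f q + Real.sin (χ q) * dL g q +
        dL χ q * (Real.cos (χ q) * g q - Real.sin (χ q) * f q) ∧
    dL (fun q => Real.cos (χ q) * g q - Real.sin (χ q) * f q) q =
      Real.cos (χ q) * dL g q - Real.sin (χ q) * dL f q -
        dL χ q * (Real.cos (χ q) * f q + Real.sin (χ q) * g q) := by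
  obtain ⟨e, s⟩ := q
  have a1 := has_dL hχ e s
  have a2 := has_dL hf e s
  have a3 := has_dL hg e s
  constructor
  · refine ((has_dL (by fun_prop) e s).unique ((a1.cos.mul a2).add (a1.sin.mul a3))).trans ?_
    ring
  · refine ((has_dL (by fun_prop) e s).unique ((a1.cos.mul a3).sub (a1.sin.mul a2))).trans ?_
    ring

variable [FiniteDimensional ℝ E]

/-- a smooth primitive in the last variable -/
lemma primL {α : E × ℝ → ℝ} (hα : ContDiff ℝ ∞ α) : ∃ χ : E × ℝ → ℝ, ContDiff ℝ ∞ χ ∧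
    (∀ e, χ (e, 1) = 0) ∧ ∀ q, dL χ q = α q := by
  let Y : (E × ℝ) × ℝ → (E × ℝ) × ℝ := fun z => ((0, 1), α z.1)
  have Ys : ContDiff ℝ ∞ Y := contDiff_const.prodMk (hα.comp contDiff_fst)
  have cur : ∀ (z : (E × ℝ) × ℝ) (t : ℝ), HasDerivAt (fun t : ℝ => ((z.1 + t • ((0, 1) : E × ℝ),
      z.2 + ∫ s in (0 : ℝ)..t, α (z.1 + s • ((0, 1) : E × ℝ))) : (E × ℝ) × ℝ))
      (((0, 1) : E × ℝ), α (z.1 + t • ((0, 1) : E × ℝ))) t := fun z t => by
    have hc : Continuous fun s : ℝ => α (z.1 + s • ((0, 1) : E × ℝ)) :=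
      hα.continuous.comp (by fun_prop)
    have h1 : HasDerivAt (fun t : ℝ => z.1 + t • ((0, 1) : E × ℝ)) ((1 : ℝ) • (0, 1)) t :=
      ((hasDerivAt_id t).smul_const _).const_add _
    rw [one_smul] at h1
    exact h1.prodMk ((hc.integral_hasStrictDerivAt 0 t).hasDerivAt.const_add _)
  obtain ⟨Φ, Φs, Φ0, Φd, Φu⟩ := P265.H185.exists_global_flow Y Ys
    (fun z => ⟨_, by simp, cur z⟩)
  have hΦ : ∀ z t, Φ t z = (z.1 + t • ((0, 1) : E × ℝ),
      z.2 + ∫ s in (0 : ℝ)..t, α (z.1 + s • ((0, 1) : E × ℝ))) := fun z t => by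
    have := Φu _ (cur z) t
    simp only [zero_smul, add_zero, intervalIntegral.integral_same] at this
    exact this.symm
  let χ : E × ℝ → ℝ := fun q => (Φ (q.2 - 1) ((q.1, 1), 0)).2
  have χs : ContDiff ℝ ∞ χ := by
    have h1 : ContDiff ℝ ∞ (fun q : E × ℝ => ((q.2 - 1, ((q.1, 1), 0)) : ℝ × ((E × ℝ) × ℝ))) := by
      fun_prop
    exact (Φs.comp h1).snd
  refine ⟨χ, χs, fun e => by simp [χ, Φ0], fun ⟨e, s⟩ => ?_⟩
  have h1 := (Φd (s - 1) ((e, 1), 0)).scomp s ((hasDerivAt_id s).sub_const 1)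
  have h2 := (ContinuousLinearMap.snd ℝ (E × ℝ) ℝ).hasFDerivAt.comp_hasDerivAt s h1
  refine ((has_dL χs e s).unique h2).trans ?_
  simp [Y, hΦ]

theorem frameL {a b c : E × ℝ → ℝ} (as : ContDiff ℝ ∞ a) (bs : ContDiff ℝ ∞ b)
    (cs : ContDiff ℝ ∞ c) (ap : ∀ q, 0 < a q) (cp : ∀ q, 0 < c q)
    (dp : ∀ q, 0 < a q * c q - b q ^ 2) : ∃ p : ℕ → E × ℝ → ℝ, (∀ i, ContDiff ℝ ∞ (p i)) ∧
      (∀ e, (∀ s, a (e, s) = a (e, 0) ∧ b (e, s) = b (e, 0) ∧ c (e, s) = c (e, 0)) →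
        ∀ i s, p i (e, s) = p i (e, 0)) ∧
      (∀ q, 0 < p 0 q * p 3 q - p 1 q * p 2 q) ∧
      (∀ q (A B : ℝ × ℝ), (a q * (A.1 * B.1) + b q * (A.1 * B.2 + A.2 * B.1) + c q * (A.2 * B.2)) *
        (p 0 q * p 3 q - p 1 q * p 2 q) ^ 2 =
        (p 3 q * A.1 - p 2 q * A.2) * (p 3 q * B.1 - p 2 q * B.2) +
          (p 0 q * A.2 - p 1 q * A.1) * (p 0 q * B.2 - p 1 q * B.1)) ∧
      (∀ q, p 0 q * dL (p 1) q - p 1 q * dL (p 0) q = p 3 q * dL (p 2) q - p 2 q * dL (p 3) q) ∧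
      ∀ e, p 1 (e, 1) = p 2 (e, 1) ∧ 0 < p 0 (e, 1) := by
  let s : E × ℝ → ℝ := fun q => √(a q * c q - b q ^ 2)
  have ss : ContDiff ℝ ∞ s := ContDiff.sqrt (by fun_prop) fun q => (dp q).ne'
  have sp : ∀ q, 0 < s q := fun q => Real.sqrt_pos.2 (dp q)
  have s2 : ∀ q, s q ^ 2 = a q * c q - b q ^ 2 := fun q => Real.sq_sqrt (dp q).le
  have tp0 : ∀ q, 0 < a q + c q + 2 * s q := fun q => by linarith [ap q, cp q, sp q]
  let t : E × ℝ → ℝ := fun q => √(a q + c q + 2 * s q)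
  have ts : ContDiff ℝ ∞ t := ContDiff.sqrt (by fun_prop) fun q => (tp0 q).ne'
  have tp : ∀ q, 0 < t q := fun q => Real.sqrt_pos.2 (tp0 q)
  have t2 : ∀ q, t q ^ 2 = a q + c q + 2 * s q := fun q => Real.sq_sqrt (tp0 q).le
  have st : ∀ q, s q * t q ≠ 0 := fun q => (mul_pos (sp q) (tp q)).ne'
  let u : E × ℝ → ℝ := fun q => (c q + s q) / (s q * t q)
  let v : E × ℝ → ℝ := fun q => -b q / (s q * t q)
  let w : E × ℝ → ℝ := fun q => (a q + s q) / (s q * t q)
  have us : ContDiff ℝ ∞ u := ContDiff.div (by fun_prop) (by fun_prop) st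
  have vs : ContDiff ℝ ∞ v := ContDiff.div (by fun_prop) (by fun_prop) st
  have ws : ContDiff ℝ ∞ w := ContDiff.div (by fun_prop) (by fun_prop) st
  have dq : ∀ q, u q * w q - v q * v q = 1 / s q := fun q =>
    root_alg (s2 q) (t2 q) (sp q).ne' (tp q).ne'
  obtain ⟨χ, χs, χ1, χd⟩ := primL (α := fun q => -(s q / 2 *
    (u q * dL v q - v q * dL u q + v q * dL w q - w q * dL v q))) (by
      have h1 := dL_sm us
      have h2 := dL_sm vs
      have h3 := dL_sm ws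
      fun_prop)
  let p : ℕ → E × ℝ → ℝ
    | 0 => fun q => Real.cos (χ q) * u q + Real.sin (χ q) * v q
    | 1 => fun q => Real.cos (χ q) * v q + Real.sin (χ q) * w q
    | 2 => fun q => Real.cos (χ q) * v q - Real.sin (χ q) * u q
    | 3 => fun q => Real.cos (χ q) * w q - Real.sin (χ q) * v q
    | _ => fun _ => 0
  have pd : ∀ q, p 0 q * p 3 q - p 1 q * p 2 q = 1 / s q := fun q => by
    rw [← dq]
    simp only [p]
    linear_combination (u q * w q - v q * v q) * Real.cos_sq_add_sin_sq (χ q)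
  refine ⟨p, fun i => ?_, fun e he i r => ?_, fun q => ?_, fun q A B => ?_, fun q => ?_,
    fun e => ?_⟩
  · match i with
    | 0 | 1 | 2 | 3 => simp only [p]; fun_prop
    | _ + 4 => exact contDiff_const
  · have uf : ∀ r, u (e, r) = u (e, 0) := fun r => by simp only [u, s, t, he r]
    have vf : ∀ r, v (e, r) = v (e, 0) := fun r => by simp only [v, s, t, he r]
    have wf : ∀ r, w (e, r) = w (e, 0) := fun r => by simp only [w, s, t, he r]
    have z : ∀ {f : E × ℝ → ℝ}, ContDiff ℝ ∞ f → (∀ r, f (e, r) = f (e, 0)) →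
        ∀ r, dL f (e, r) = 0 := fun hf h r => by
      have h1 := has_dL hf e r
      rw [funext h] at h1
      exact h1.unique (hasDerivAt_const _ _)
    have χ0 : ∀ r, χ (e, r) = 0 := fun r => by
      have h1 : ∀ r, HasDerivAt (fun t => χ (e, t)) 0 r := fun r =>
        (has_dL χs e r).congr_deriv (by rw [χd, z us uf, z vs vf, z ws wf]; ring)
      rw [is_const_of_deriv_eq_zero (fun t => (h1 t).differentiableAt) (fun t => (h1 t).deriv) r 1,
        χ1]
    match i with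
    | 0 | 1 | 2 | 3 => simp only [p, χ0, uf r, vf r, wf r]
    | _ + 4 => rfl
  · rw [pd]
    exact one_div_pos.2 (sp q)
  · rw [pd]
    have h1 : (p 3 q * A.1 - p 2 q * A.2) * (p 3 q * B.1 - p 2 q * B.2) +
        (p 0 q * A.2 - p 1 q * A.1) * (p 0 q * B.2 - p 1 q * B.1) =
        (w q * A.1 - v q * A.2) * (w q * B.1 - v q * B.2) +
        (u q * A.2 - v q * A.1) * (u q * B.2 - v q * B.1) := by
      simp only [p]
      linear_combination ((w q * A.1 - v q * A.2) * (w q * B.1 - v q * B.2) +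
        (u q * A.2 - v q * A.1) * (u q * B.2 - v q * B.1)) * Real.cos_sq_add_sin_sq (χ q)
    rw [h1]
    have k1 := s2 q
    have k2 := t2 q
    have k3 := (sp q).ne'
    have k4 := (tp q).ne'
    simp only [u, v, w]
    generalize s q = S at *
    generalize t q = T at *
    field_simp
    rw [k2]
    linear_combination -(A.1 * B.1 + A.2 * B.2) * k1
  · have h1 := dL_rot χs us vs q
    have h2 := dL_rot χs vs ws q
    have h3 := dq q
    have h4 := (sp q).ne'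
    have h5 : s q * (u q * w q - v q * v q) = 1 := by rw [h3]; field_simp
    simp only [p]
    rw [h1.1, h1.2, h2.1, h2.2, χd]
    linear_combination (u q * dL v q - v q * dL u q + v q * dL w q - w q * dL v q) *
      (1 - s q * (u q * w q - v q * v q)) * Real.cos_sq_add_sin_sq (χ q) -
      (u q * dL v q - v q * dL u q + v q * dL w q - w q * dL v q) * h5
  · simp only [p, χ1, Real.cos_zero, Real.sin_zero, one_mul, zero_mul, add_zero, sub_zero, true_and]
    exact div_pos (add_pos (cp _) (sp _)) (mul_pos (sp _) (tp _))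

end Gen

/-- The reflections of e and s. -/
def Th (a b : ℝ) (q : R4) : R4 := (a * q.1, b * q.2.1, q.2.2)

/-- The frame with parameters; it is even in e and in s. -/
theorem frameP {G : ℕ → Y3 → ℝ} (σ : Bool) (hG : ∀ i, ContDiff ℝ ∞ (G i))
    (hp : ∀ p s, ∀ z ∈ Icc (-1 : ℝ) 1, 0 < G 0 (p, s, z) ∧ 0 < G 1 (p, s, z) ∧
      0 < G 1 (p, s, z) * (G 1 (p, s, z) + (1 - z ^ 2) * G 2 (p, s, z)) -
        (1 - z ^ 2) ^ 2 * G 3 (p, s, z) ^ 2) :
    ∃ P : P3 → ℕ → R4 → ℝ, (∀ i, ContDiff ℝ ∞ fun c : P3 × R4 => P c.1 i c.2) ∧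
      (∀ p, Hyp (Fx G p) σ (P p)) ∧
      ∀ p i a b q, a ^ 2 = 1 → b ^ 2 = 1 → P p i (Th a b q) = P p i q := by
  let g : (P3 × ℝ × ℝ × ℝ) × ℝ → ℝ × ℝ → ℝ × ℝ → ℝ := fun r A B =>
    gq (fun i c => G i (r.1.1, r.1.2.1 * r.2, c.2.2)) σ (0, 0, r.1.2.2) A B
  have gs : ∀ A B, ContDiff ℝ ∞ fun r => g r A B := fun A B => by
    have h0 := ht_smooth σ
    have h2 := hG 1
    have h3 := hG 2
    have h4 := hG 3
    have h7 : ContDiff ℝ ∞ fun r : (P3 × ℝ × ℝ × ℝ) × ℝ =>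
        ((1 + r.1.2.2.1 ^ 2 + r.1.2.2.2 ^ 2) ^ 2)⁻¹ :=
      ContDiff.inv (by fun_prop) fun r => pow_ne_zero 2 (sd_pos r.1.2.2).ne'
    simp only [g, gq, arQ, rnd, dht, alp, div_eq_mul_inv]
    fun_prop
  have gp : ∀ r A, A ≠ 0 → 0 < g r A A := fun r A hA => by
    obtain ⟨_, p1, p2⟩ := hp r.1.1 (r.1.2.1 * r.2) _ (ht_mem σ r.1.2.2)
    exact gam_pos (k := 0) (d := 0) (F := fun i c => G i (r.1.1, r.1.2.1 * r.2, c.2.2))
      (p := (0, 0, r.1.2.2)) σ p1 p2 hA
  obtain ⟨P, h1, h2, h3, h4, h5, h6⟩ := frameL (gs (1, 0) (1, 0)) (gs (1, 0) (0, 1))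
    (gs (0, 1) (0, 1)) (fun r => gp r _ (by simp)) (fun r => gp r _ (by simp)) fun r => by
      have a0 := gp r (1, 0) (by simp)
      have h1 := gp r (-g r (1, 0) (0, 1), g r (1, 0) (1, 0))
        (fun h => a0.ne' (congrArg Prod.snd h))
      rw [show g r _ _ = _ from gq_exp _ σ _ _ _] at h1
      refine (mul_pos_iff_of_pos_left a0).1 ?_
      simp only [g] at h1 ⊢
      linarith
  let m : P3 → R4 → (P3 × ℝ × ℝ × ℝ) × ℝ := fun p q => ((p, q.1 ^ 2, q.2.2), q.2.1 ^ 2)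
  have sm : ∀ i, ContDiff ℝ ∞ fun c : P3 × R4 => P i (m c.1 c.2) := fun i =>
    (h1 i).comp (by simp only [m]; fun_prop)
  have sm' : ∀ p i, ContDiff ℝ ∞ fun q => P i (m p q) := fun p i =>
    (sm i).comp (contDiff_const.prodMk contDiff_id)
  refine ⟨fun p i q => P i (m p q), sm, fun p => ⟨fun i => (hG i).comp (by fun_prop),
    fun i s z => by simp [Fx], fun d s z hz => (hp p _ z hz).1, sm' p, fun i s y => ?_,
    fun q => h3 _, fun q A B => ?_, fun q => ?_, fun e y => ?_⟩, fun p i a b q ha hb => ?_⟩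
  · have := h2 (p, 0 ^ 2, y) (fun s => by simp [g]) i
    exact (this _).trans (this _).symm
  · rw [gq_exp]
    exact h4 (m p q) A B
  · obtain ⟨e, s, y⟩ := q
    have d : ∀ i, dS (fun q => P i (m p q)) (e, s, y) = dL (P i) (m p (e, s, y)) * (2 * s) :=
      fun i => by
        have := HasDerivAt.comp (h₂ := fun t => P i ((p, e ^ 2, y), t)) (h := fun x => x ^ 2) s
          (has_dL (h1 i) (p, e ^ 2, y) (s ^ 2)) (hasDerivAt_pow 2 s)
        exact ((hasDerivAt_dS (sm' p i) e s y).unique this).trans (by simp [m])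
    simp only [d]
    linear_combination 2 * s * h5 (m p (e, s, y))
  · simpa [m] using h6 (p, e ^ 2, y)
  · simp only [m, Th, mul_pow, ha, hb, one_mul]

end Vale.Agent.P354KF
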