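import Vale.Agent.P354KF.Bk2
import Vale.Agent.P354KF.Kf
import Vale.Agent.P354RG.GB
import Vale.Agent.P354E3.Geo
import Vale.Agent.P354N2.Sta
import Vale.Agent.P354W2.Main

namespace Vale.Agent.P354KF

theorem bk2 : P354I.BK2 :=
  bk2_of P354RG.gb P354E3.ten_pb kf P354E3.pdk P354E3.geo P354N2.sta_main
    (P354W2.wit P354E3.ten_pb P354E3.pdk)

end Vale.Agent.P354KF
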