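import Vale.Agent.P354KF.Fr

/-!
Joint smoothness in the parameters and parity of the unknowns of the background.
-/

open scoped ContDiff
open Set Filter Topology

namespace Vale.Agent.P354KF

open Vale.Agent.P354n (R4)
open Vale.Agent.P354I (P3)
open Vale.Agent.P354C Vale.Agent.P354C.Ix
open Vale.Agent.P354A (U0 isQ isW)
open Vale.Agent.P354R Vale.Agent.P354RG

/-- Joint smoothness. -/
def J {V : Type} [NormedAddCommGroup V] [NormedSpace ℝ V] (f : P3 → R4 → V) : Prop :=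
  ContDiff ℝ ∞ fun c : P3 × R4 => f c.1 c.2

lemma J.at {V : Type} [NormedAddCommGroup V] [NormedSpace ℝ V] {f : P3 → R4 → V} (h : J f)
    (p : P3) : ContDiff ℝ ∞ (f p) := h.comp (contDiff_const.prodMk contDiff_id)

lemma J.dir {f : P3 → R4 → ℝ} (hf : J f) {a : P3 → R4 → R4} (ha : J a) :
    J fun p q => fderiv ℝ (f p) q (a p q) :=
  (ContDiff.fderiv (f := fun c : P3 × R4 => f c.1) (g := fun c => c.2) (m := ∞) (n := ∞)
    (hf.comp (contDiff_fst.fst.prodMk contDiff_snd)) contDiff_snd (by simp)).clm_apply ha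

lemma J.dT {f : P3 → R4 → ℝ} (hf : J f) {a : P3 → R4 → R4} (ha : J a) (k : ℝ) :
    J fun p q => fderiv ℝ (f p) q (Tq k q (a p q)) :=
  hf.dir (a := fun p q => Tq k q (a p q)) (by unfold J Tq at *; fun_prop)

lemma fr_J {V : P3 → R4 → Ix → ℝ} (hV : ∀ i, J fun p q => V p q i) (j : Fin 4) :
    J fun p q => fr (V p q) j := by
  unfold J at *
  fin_cases j <;> simp [fr, vec, E] <;> fun_prop

lemma mu_J (n : ℕ) : J fun _ q => mu q ^ n := (mu_smooth.comp contDiff_snd).pow n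

lemma Th_fd {f : R4 → ℝ} (hf : ContDiff ℝ ∞ f) {a b c : ℝ} (h : ∀ q, f (Th a b q) = c * f q)
    (q v : R4) : fderiv ℝ f (Th a b q) (Th a b v) = c * fderiv ℝ f q v := by
  have h1 := (dA hf (Th a b q)).hasFDerivAt.hasLineDerivAt (Th a b v)
  have h2 := ((dA hf q).hasFDerivAt.hasLineDerivAt v).const_mul c
  refine h1.unique (h2.congr_of_eventuallyEq (Eventually.of_forall fun t => ?_))
  show f (Th a b q + t • Th a b v) = c * f (q + t • v)
  rw [← h]
  congr 1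
  simp only [Th, Prod.smul_mk, Prod.mk_add_mk, smul_eq_mul, Prod.fst_add, Prod.snd_add,
    Prod.smul_fst, Prod.smul_snd, Prod.mk.injEq, and_true]
  constructor <;> ring

lemma Th_dT {f : R4 → ℝ} (hf : ContDiff ℝ ∞ f) {a b c : ℝ} (h : ∀ q, f (Th a b q) = c * f q)
    (k : ℝ) (q v : R4) :
    fderiv ℝ f (Th a b q) (Tq k (Th a b q) v) = c * fderiv ℝ f q (Tq k q v) := by
  rw [← Th_fd hf h]
  congr 1
  simp only [Th, Tq, mul_zero, Prod.mk.injEq, true_and, and_true]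
  ring

theorem lift2_sign {U V : Ix → ℝ} {dU dV : Fin 4 → Ix → ℝ} (h : ∀ i, U i = (-1) ^ nn i * V i)
    (h0 : ∀ i, dU 0 i = (-1) ^ nn i * dV 0 i) (h1 : ∀ i, dU 1 i = (-1) ^ nn i * dV 1 i)
    (h2 : ∀ i, dU 2 i = -((-1) ^ nn i * dV 2 i)) (h3 : ∀ i, dU 3 i = -((-1) ^ nn i * dV 3 i))
    (i : Ix) (hi : isW i) (hq : ¬ isQ i) : lift2 U dU i = lift2 V dV i := by
  cases i <;> simp only [isW, isQ, Bool.false_eq_true, not_true_eq_false] at hi hq <;>
    simp [lift2, curD, Gam, Wy, asym, Fin.sum_univ_four, h, h0, h1, h2, h3, nn]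
  all_goals ring

/-- The hypotheses. -/
structure HypP (G : ℕ → Y3 → ℝ) (σ : Bool) (P : P3 → ℕ → R4 → ℝ) : Prop where
  sm : ∀ i, ContDiff ℝ ∞ (G i)
  smP : ∀ i, J fun p => P p i
  hyp : ∀ p, Hyp (Fx G p) σ (P p)
  ev : ∀ p i a b q, a ^ 2 = 1 → b ^ 2 = 1 → P p i (Th a b q) = P p i q

namespace HypP

variable {G : ℕ → Y3 → ℝ} {σ : Bool} {P : P3 → ℕ → R4 → ℝ} (h : HypP G σ P) (k : ℝ)
include h

lemma F_J (i : ℕ) : J fun p q => Fx G p i (arQ σ q) := by
  have h1 := h.sm i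
  have h2 := ht_smooth σ
  unfold J Fx arQ
  fun_prop

lemma Vh_J (i : Ix) : J fun p q => Vh (Fx G p) σ (P p) q i := by
  have h1 : J fun p q => oh (Fx G p) σ q :=
    ContDiff.sqrt (h.F_J 0) fun c => ((h.hyp c.1).F0_pos c.2).ne'
  have h2 := h.smP
  have h3 := h.F_J 4
  unfold J at *
  cases i <;> simp only [Vh] <;> fun_prop

lemma V0_J (i : Ix) : J fun p q => V0 (Fx G p) σ (P p) q i := ContDiff.mul (mu_J _) (h.Vh_J i)

lemma dh_J (j : Fin 4) (i : Ix) : J fun p q => dh k (Fx G p) σ (P p) q j i := by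
  unfold dh
  split_ifs
  · exact ContDiff.sub ((h.Vh_J i).dT (fr_J h.V0_J j) k) (contDiff_const.mul (h.Vh_J i))
  · exact ContDiff.mul (mu_J _) ((h.Vh_J i).dT (fr_J h.Vh_J j) k)

lemma Gh_J (i : Ix) : J fun p q => Gh k (Fx G p) σ (P p) q i :=
  lift1_smooth (V := fun c : P3 × R4 => Vh (Fx G c.1) σ (P c.1) c.2)
    (dV := fun c => dh k (Fx G c.1) σ (P c.1) c.2) h.Vh_J (h.dh_J k)
    (fun c => ((h.hyp c.1).oh_pos c.2).ne') (fun c => ((h.hyp c.1).det_pos c.2).ne') i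

lemma G1_J (i : Ix) : J fun p q => G1 k (Fx G p) σ (P p) q i := ContDiff.mul (mu_J _) (h.Gh_J k i)

lemma G2_J (i : Ix) : J fun p q => G2 k (Fx G p) σ (P p) q i :=
  lift2_smooth (V := fun c : P3 × R4 => G1 k (Fx G c.1) σ (P c.1) c.2)
    (dV := fun c => dQ k (G1 k (Fx G c.1) σ (P c.1)) c.2) (h.G1_J k)
    (fun j i => (h.G1_J k i).dT (fr_J (h.G1_J k) j) k) i

lemma HH_J (i : Ix) : J fun p q => HH k (Fx G p) σ (P p) q i :=
  lift2_smooth (V := fun c : P3 × R4 => Gh k (Fx G c.1) σ (P c.1) c.2)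
    (dV := fun c => dH k (Fx G c.1) σ (P c.1) c.2) (h.Gh_J k)
    (fun j i => ContDiff.sub ((h.Gh_J k i).dT (fr_J (h.G1_J k) j) k)
      (contDiff_const.mul (h.Gh_J k i))) i

variable (p : P3) {a b : ℝ} (ha : a ^ 2 = 1) (hb : b ^ 2 = 1) (hab : a * b = -1)
include ha hb

lemma Vh_ev (q : R4) : Vh (Fx G p) σ (P p) (Th a b q) = Vh (Fx G p) σ (P p) q := by
  have e1 : arQ σ (Th a b q) = arQ σ q := by simp only [arQ, Th, mul_pow, ha, hb, one_mul]
  funext i
  cases i <;> simp only [Vh, oh, e1, h.ev p _ a b q ha hb] <;> rfl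

include hab

omit h ha hb in
lemma mu_ev (q : R4) : mu (Th a b q) = -mu q := by
  simp only [mu, Th]
  linear_combination q.1 * q.2.1 * hab

lemma dh_ev (q : R4) : dh k (Fx G p) σ (P p) (Th a b q) = dh k (Fx G p) σ (P p) q := by
  funext j i
  have d := fun v => Th_dT ((h.hyp p).Vh_s i) (c := 1)
    (fun q => by rw [h.Vh_ev p ha hb, one_mul]) k q v
  unfold dh
  rw [d, d, one_mul, one_mul, h.Vh_ev p ha hb, mu_ev hab, Even.neg_pow (even_two_mul _)]
  split_ifs with hj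
  · rcases hj with rfl | rfl
    · simp only [fr0, V0, nn, mu_ev hab, h.Vh_ev p ha hb, neg_sq]
    · rw [fr1, fr1]
  · rfl

lemma G1_ev (q : R4) (i : Ix) :
    G1 k (Fx G p) σ (P p) (Th a b q) i = (-1) ^ nn i * G1 k (Fx G p) σ (P p) q i := by
  unfold G1 Gh
  rw [h.Vh_ev p ha hb, h.dh_ev k p ha hb hab, mu_ev hab, neg_pow, mul_assoc]

lemma G2_ev (q : R4) (i : Ix) (hi : isW i) (hq : ¬ isQ i) :
    G2 k (Fx G p) σ (P p) (Th a b q) i = G2 k (Fx G p) σ (P p) q i := by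
  have e := h.G1_ev k p ha hb hab
  have d := fun i v => Th_dT ((h.hyp p).G1_s k i) (fun q => e q i) k q v
  have n : ∀ (L : R4 →L[ℝ] ℝ) (x y : ℝ), L (Tq k q (0, 0, -x, -y)) = -L (Tq k q (0, 0, x, y)) :=
    fun L x y => by
      rw [← map_neg]
      congr 1
      simp [Tq]
  refine lift2_sign (e q) (fun i => ?_) (fun i => ?_) (fun i => ?_) (fun i => ?_) i hi hq <;>
    unfold dQ <;> rw [d]
  · simp only [fr0, e, nn, neg_sq, one_pow, one_mul]
  · rw [fr1, fr1]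
  · simp only [fr2, e q P11, e q P12, show nn P11 = 1 from rfl, show nn P12 = 1 from rfl, pow_one,
      neg_one_mul, n, mul_neg]
  · simp only [fr3, e q P21, e q P22, show nn P21 = 1 from rfl, show nn P22 = 1 from rfl, pow_one,
      neg_one_mul, n, mul_neg]

end HypP

lemma Flat.dy {f : R4 → ℝ} (h : ContDiff ℝ ∞ f) (hf : Flat f) (s : ℝ) (y w : ℝ × ℝ) :
    fderiv ℝ f (0, s, y) (0, 0, w) = fderiv ℝ f (0, 0, y) (0, 0, w) := by
  have h1 := (dA h (0, s, y)).hasFDerivAt.hasLineDerivAt (0, 0, w)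
  have h2 := (dA h (0, 0, y)).hasFDerivAt.hasLineDerivAt (0, 0, w)
  refine h1.unique (HasDerivAt.congr_of_eventuallyEq h2 (Eventually.of_forall fun t => ?_))
  simpa using (hf s (y + t • w)).trans (hf 0 (y + t • w)).symm

variable {F : ℕ → R3 → ℝ} {σ : Bool} {p : ℕ → R4 → ℝ}

lemma Gh_flat (h : Hyp F σ p) (k : ℝ) (i : Ix) : Flat fun q => Gh k F σ p q i := fun s y => by
  have e1 : Vh F σ p (0, s, y) = Vh F σ p (0, 0, y) := funext fun i => h.Vh_flat i s y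
  have m : ∀ s, mu (0, s, y) = 0 := fun s => zero_mul _
  have e2 : dh k F σ p (0, s, y) = dh k F σ p (0, 0, y) := by
    funext j i
    unfold dh
    split_ifs with hj
    · have z : ∀ s, (fr (V0 F σ p (0, s, y)) j).2.2 = 0 := fun s => by
        rcases hj with rfl | rfl
        · simp [fr0, V0, nn, m]
        · rfl
      rw [h.T_bdry k (h.Vh_s i) (h.Vh_flat i) (Or.inl rfl) (z s),
        h.T_bdry k (h.Vh_s i) (h.Vh_flat i) (Or.inl rfl) (z 0), e1]
    · have z : ∀ U, (fr U j).1 = 0 := fun U => by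
        fin_cases j <;> first | rfl | simp at hj
      simp only [Tq, z, mul_zero, e1, m, Flat.dy (h.Vh_s i) (h.Vh_flat i) s]
  simp only [Gh, e1, e2]

lemma HH_e0 (h : Hyp F σ p) (k : ℝ) {q : R4} (hq : q.1 = 0) (i : Ix) (hi : isQ i) :
    HH k F σ p q i = 0 := by
  have h1 := h.G1_bdry k (Or.inl hq)
  have a0 : ∀ i, fderiv ℝ (fun z => Gh k F σ p z i) q (Tq k q (fr (G1 k F σ p q) 0)) = 0 :=
    fun i => h.T_bdry k (h.Gh_s k i) (Gh_flat h k i) (Or.inl hq) (by rw [h1]; simp [fr0, U0])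
  have a1 : ∀ i, fderiv ℝ (fun z => Gh k F σ p z i) q (Tq k q (fr (G1 k F σ p q) 1)) = 0 :=
    fun i => h.T_bdry k (h.Gh_s k i) (Gh_flat h k i) (Or.inl hq) rfl
  refine lift2_bdryQ (k := k) (h.Gh_bdry k (Or.inl hq)) (lift1_W _ _) ?_ ?_ i hi <;>
    simp [dH, a0, a1, neg_div]

end Vale.Agent.P354KF
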